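import Mathlib

/-!
# R312/N/Alg (owner helper98): a `q`-th power non-residue from Jacobi sums.
If `p` is not a `q`-th power modulo the prime `l ≡ 1 (mod q)`, then `γ = g(χ) ^ q` (a product of Jacobi sums) is not a `q`-th power in
a field `K ∋ ζ_q` with `p ^ k` elements, `q ∤ k`:  `g ^ (Q - 1) = χ(Q)⁻¹ = ζ ^ (-k)`.
-/

set_option autoImplicit false

open Finset

noncomputable section

namespace Crest.Agent.R312.N

/-- the character of order `q` modulo `l` with `χ p = ζ` -/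
def chv {K : Type} [CommRing K] (ζ : K) (p q l a : ℕ) : K :=
  ∑ j ∈ range q, if a ^ ((l - 1) / q) % l = p ^ ((l - 1) / q * j) % l then ζ ^ j else 0

/-- the Jacobi sum `J (χ, χ ^ i)` -/
def jac {K : Type} [CommRing K] (ζ : K) (p q l i : ℕ) : K :=
  ∑ x ∈ range l, chv ζ p q l x * chv ζ p q l (l + 1 - x) ^ i

/-- the `q`-th power of the Gauss sum -/
def gam {K : Type} [CommRing K] (ζ : K) (p q l : ℕ) : K :=
  chv ζ p q l (l - 1) * l * ∏ i ∈ Ico 1 (q - 1), jac ζ p q l i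

section
variable {K : Type} [CommRing K] {ζ : K} {p q l : ℕ}

theorem chv_eq (a : ℕ) : chv ζ p q l a =
    ∑ j ∈ range q, if (a : ZMod l) ^ ((l - 1) / q) = ((p : ZMod l) ^ ((l - 1) / q)) ^ j then ζ ^ j else 0 := by
  classical
  refine sum_congr rfl fun j _ => if_congr ?_ rfl rfl
  rw [← ZMod.natCast_eq_natCast_iff', Nat.cast_pow, Nat.cast_pow, pow_mul]

theorem chv_of_eq (hζ : IsPrimitiveRoot ζ q) (hω : IsPrimitiveRoot ((p : ZMod l) ^ ((l - 1) / q)) q) (hq : 0 < q)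
    {a j : ℕ} (h : (a : ZMod l) ^ ((l - 1) / q) = ((p : ZMod l) ^ ((l - 1) / q)) ^ j) :
    chv ζ p q l a = ζ ^ j := by
  rw [chv_eq, h, sum_eq_single (j % q)]
  · rw [if_pos (pow_eq_pow_mod j hω.pow_eq_one), ← pow_eq_pow_mod j hζ.pow_eq_one]
  · intro i hi hne
    refine if_neg fun e => hne ?_
    rw [pow_eq_pow_mod j hω.pow_eq_one] at e
    exact (hω.pow_inj (Nat.mod_lt _ hq) (mem_range.1 hi) e).symm
  · exact fun h => absurd (mem_range.2 (Nat.mod_lt _ hq)) h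

theorem exists_char [Fact l.Prime] (hζ : IsPrimitiveRoot ζ q) (hq : q.Prime) (hd : q ∣ l - 1)
    (hp0 : (p : ZMod l) ≠ 0) (hp1 : (p : ZMod l) ^ ((l - 1) / q) ≠ 1) :
    ∃ χ : MulChar (ZMod l) K, (∀ a : ℕ, χ a = chv ζ p q l a) ∧ χ p = ζ ∧ χ ^ q = 1 := by
  have hl : l.Prime := Fact.out
  have := Fact.mk hq
  have : NeZero q := ⟨hq.ne_zero⟩
  have he : 0 < (l - 1) / q := Nat.div_pos (Nat.le_of_dvd (by have := hl.two_le; omega) hd) hq.pos
  have hpow : ∀ z : ZMod l, z ≠ 0 → (z ^ ((l - 1) / q)) ^ q = 1 := fun z hz => by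
    rw [← pow_mul, Nat.div_mul_cancel hd, ZMod.pow_card_sub_one_eq_one hz]
  have hω : IsPrimitiveRoot ((p : ZMod l) ^ ((l - 1) / q)) q := by
    have := IsPrimitiveRoot.orderOf ((p : ZMod l) ^ ((l - 1) / q))
    rwa [orderOf_eq_prime (hpow _ hp0) hp1] at this
  have hex : ∀ z : ZMod l, z ≠ 0 → ∃ j, z ^ ((l - 1) / q) = ((p : ZMod l) ^ ((l - 1) / q)) ^ j := fun z hz => by
    obtain ⟨j, -, hj⟩ := hω.eq_pow_of_pow_eq_one (hpow z hz)
    exact ⟨j, hj.symm⟩
  have h0 : ∀ a : ℕ, (a : ZMod l) = 0 → chv ζ p q l a = 0 := fun a ha => by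
    rw [chv_eq, ha, zero_pow he.ne']
    exact sum_eq_zero fun j _ => if_neg (pow_ne_zero _ (pow_ne_zero _ hp0)).symm
  have hv : ∀ (z : ZMod l) j, z ^ ((l - 1) / q) = ((p : ZMod l) ^ ((l - 1) / q)) ^ j → chv ζ p q l z.val = ζ ^ j :=
    fun z j h => chv_of_eq hζ hω hq.pos (by rwa [ZMod.natCast_zmod_val])
  have hz : chv ζ p q l (0 : ZMod l).val = 0 := h0 _ (by simp)
  let χ : MulChar (ZMod l) K :=
    { toFun := fun z => chv ζ p q l z.val
      map_one' := by simpa using hv 1 0 (by simp)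
      map_mul' := fun x y => by
        by_cases hx : x = 0
        · rw [hx, zero_mul, hz, zero_mul]
        by_cases hy : y = 0
        · rw [hy, mul_zero, hz, mul_zero]
        obtain ⟨i, hi⟩ := hex x hx
        obtain ⟨j, hj⟩ := hex y hy
        rw [hv x i hi, hv y j hj, hv (x * y) (i + j) (by rw [mul_pow, hi, hj, pow_add]), pow_add]
      map_nonunit' := fun x hx => by
        obtain rfl : x = 0 := by simpa using hx
        exact hz }
  have hχ : ∀ z, χ z = chv ζ p q l z.val := fun _ => rfl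
  refine ⟨χ, fun a => ?_, ?_, ?_⟩
  · rw [hχ, chv_eq, chv_eq, ZMod.natCast_zmod_val]
  · rw [hχ, hv _ 1 (pow_one _).symm, pow_one]
  · ext x
    obtain ⟨j, hj⟩ := hex x x.ne_zero
    rw [MulChar.pow_apply_coe, MulChar.one_apply_coe, hχ, hv _ j hj, ← pow_mul, mul_comm, pow_mul, hζ.pow_eq_one,
      one_pow]

theorem sum_zmod {M : Type} [AddCommMonoid M] [NeZero l] (f : ZMod l → M) : ∑ z, f z = ∑ x ∈ range l, f (x : ℕ) := by
  exact (sum_nbij' (s := range l) (t := univ) (fun x : ℕ => (x : ZMod l)) (fun z => z.val) (fun _ _ => mem_univ _)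
    (fun z _ => mem_range.2 z.val_lt) (fun x hx => ZMod.val_cast_of_lt (mem_range.1 hx))
    (fun z _ => ZMod.natCast_zmod_val z) fun _ _ => rfl).symm

theorem gam_eq [Fact l.Prime] {χ : MulChar (ZMod l) K} (hχ : ∀ a : ℕ, χ a = chv ζ p q l a) :
    gam ζ p q l = χ (-1) * Fintype.card (ZMod l) * ∏ i ∈ Ico 1 (q - 1), jacobiSum χ (χ ^ i) := by
  have hl : l.Prime := Fact.out
  rw [gam, ZMod.card, ← hχ, Nat.cast_sub hl.one_le, ZMod.natCast_self, Nat.cast_one, zero_sub]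
  congr 1
  refine prod_congr rfl fun i hi => ?_
  rw [jac, jacobiSum, sum_zmod]
  refine sum_congr rfl fun x hx => ?_
  rw [MulChar.pow_apply' _ (by have := (mem_Ico.1 hi).1; omega), ← hχ, ← hχ,
    Nat.cast_sub (by have := mem_range.1 hx; omega), Nat.cast_add, ZMod.natCast_self, zero_add, Nat.cast_one]

end

theorem gauss_iter {R L : Type} [CommRing R] [Fintype R] [CommRing L] (p : ℕ) [Fact p.Prime] [CharP L p]
    (χ : MulChar R L) (ψ : AddChar R L) (k : ℕ) :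
    gaussSum χ ψ ^ p ^ k = gaussSum (χ ^ p ^ k) (ψ ^ p ^ k) := by
  induction k with
  | zero => simp
  | succ k ih => rw [pow_succ, pow_mul, ih, gaussSum_frob, ← pow_mul, ← pow_mul]

theorem gam_spec {K : Type} [Field K] [Fintype K] {ζ : K} {p q l k : ℕ} (hp : p.Prime) [CharP K p] (hq : q.Prime)
    (hl : l.Prime) (hcard : Fintype.card K = p ^ k) (hk : ¬ q ∣ k) (hζ : IsPrimitiveRoot ζ q) (hd : q ∣ l - 1)
    (hlp : l ≠ p) (hp1 : (p : ZMod l) ^ ((l - 1) / q) ≠ 1) :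
    gam ζ p q l ≠ 0 ∧ gam ζ p q l ^ ((Fintype.card K - 1) / q) ≠ 1 := by
  have := Fact.mk hp
  have := Fact.mk hq
  have := Fact.mk hl
  have hp0 : (p : ZMod l) ≠ 0 := by
    rw [Ne, ZMod.natCast_eq_zero_iff, Nat.prime_dvd_prime_iff_eq hl hp]
    exact hlp
  obtain ⟨χ₀, h1, h2, h3⟩ := exists_char hζ hq hd hp0 hp1
  let L := AlgebraicClosure K
  let f : K →+* L := algebraMap K L
  have hf : Function.Injective f := f.injective
  have : CharP L p := charP_of_injective_ringHom hf p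
  have hl0 : (l : L) ≠ 0 := by
    rw [Ne, CharP.cast_eq_zero_iff L p, Nat.prime_dvd_prime_iff_eq hp hl]
    exact hlp.symm
  have : NeZero (l : L) := ⟨hl0⟩
  obtain ⟨η, hη⟩ := HasEnoughRootsOfUnity.exists_primitiveRoot L l
  have hψ := AddChar.zmodChar_primitive_of_primitive_root l hη
  set ψ := AddChar.zmodChar l ((IsPrimitiveRoot.iff_def η l).mp hη).left
  set χ := χ₀.ringHomComp f with hχ
  have hχp : χ p = f ζ := by rw [hχ, MulChar.ringHomComp_apply, h2]
  have hζ' : IsPrimitiveRoot (f ζ) q := hζ.map_of_injective hf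
  have hχ1 : χ ≠ 1 := fun h => by
    rw [h, MulChar.one_apply (Ne.isUnit hp0)] at hχp
    exact hζ'.ne_one hq.one_lt hχp.symm
  have hχq : χ ^ q = 1 := by rw [hχ, MulChar.ringHomComp_pow, h3, MulChar.ringHomComp_one]
  have hord : orderOf χ = q := orderOf_eq_prime hχq hχ1
  have hg := gaussSum_pow_eq_prod_jacobiSum (χ := χ) (hord ▸ hq.two_le) hψ
  have hγ : gaussSum χ ψ ^ q = f (gam ζ p q l) := by
    rw [hord] at hg
    rw [hg, gam_eq h1, map_mul, map_mul, map_prod, map_natCast, hχ, MulChar.ringHomComp_apply]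
    congr 1
    exact prod_congr rfl fun i _ => by rw [MulChar.ringHomComp_pow, jacobiSum_ringHomComp]
  have hg0 : gaussSum χ ψ ≠ 0 := gaussSum_ne_zero_of_nontrivial (by rwa [ZMod.card]) hχ1 hψ
  have hQ : q ∣ Fintype.card K - 1 :=
    (hζ.pow_eq_one_iff_dvd _).1 (FiniteField.pow_card_sub_one_eq_one ζ (hζ.ne_zero hq.ne_zero))
  have hQ1 : 1 ≤ Fintype.card K := Fintype.card_pos
  refine ⟨fun h => ?_, fun h => ?_⟩
  · rw [h, map_zero] at hγ
    exact pow_ne_zero _ hg0 hγ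
  have e1 : gaussSum χ ψ ^ (Fintype.card K - 1) = 1 := by
    rw [← Nat.mul_div_cancel' hQ, pow_mul, hγ, ← map_pow, h, map_one]
  have e2 : gaussSum χ ψ ^ Fintype.card K = gaussSum χ ψ := by
    rw [← Nat.sub_add_cancel hQ1, pow_succ, e1, one_mul]
  have e3 : χ ^ Fintype.card K = χ := by
    rw [← Nat.sub_add_cancel hQ1, pow_succ, ← Nat.mul_div_cancel' hQ, pow_mul, hχq, one_pow, one_mul]
  have e4 := gaussSum_mulShift χ ψ ((Units.mk0 (p : ZMod l) hp0) ^ k)
  have e5 : ψ ^ p ^ k = ψ.mulShift (((Units.mk0 (p : ZMod l) hp0) ^ k : (ZMod l)ˣ) : ZMod l) := by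
    rw [AddChar.pow_mulShift]
    simp
  rw [hcard] at e2 e3
  rw [gauss_iter, e3, e5] at e2
  rw [e2, Units.val_pow_eq_pow_val, map_pow, Units.val_mk0, hχp] at e4
  exact hk ((hζ'.pow_eq_one_iff_dvd k).1 (mul_right_cancel₀ hg0 (by rw [e4, one_mul])))

end Crest.Agent.R312.N
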