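import Crest.Agent.R312.T1
import Crest.Agent.R312.N.Alg

/-!
# R312/N/PT (owner helper98): the search for a non-residue, given small primes `l` modulo which `p` is not a `q`-th power.
-/

set_option autoImplicit false

open Finset Crest.Agent.Lib.PolyTime

noncomputable section

namespace Crest.Agent.R312

/-- a small prime `l ≡ 1 (mod q)` modulo which `p` is not a `q`-th power -/
def StSmall : Prop := ∃ c : ℕ, ∀ p q : ℕ, p.Prime → q.Prime → ∃ l : ℕ, l.Prime ∧ l < (q + p.size) ^ c ∧ q ∣ l - 1 ∧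
  l ≠ p ∧ (p : ZMod l) ^ ((l - 1) / q) ≠ 1

namespace N

theorem dpt_chv {α : Type} [Enc α] {K : α → Type} [∀ a, CommRing (K a)] [∀ a, Enc (K a)] (hK : BR K)
    {ζ : ∀ a, K a} (hζ : DPT ζ) {p q l x : α → ℕ} (hp : PT p) (hq : UN q) (hl : UN l) (hx : PT x) :
    DPT fun a => chv (ζ a) (p a) (q a) (l a) (x a) := by
  refine hK.rangeSum hq (x := fun a j => if x a ^ ((l a - 1) / q a) % l a = p a ^ ((l a - 1) / q a * j) % l a
    then ζ a ^ j else 0) ?_
  have h1 : PT fun b : Σ a, Fin (q a) => b.1 := pt_sigma_fst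
  have hj : UN fun b : Σ a, Fin (q a) => b.2.val := hq.fin
  have hl' := hl.comp h1
  have hq' := hq.comp h1
  have he : UN fun b : Σ a, Fin (q a) => (l b.1 - 1) / q b.1 :=
    ⟨(hl'.1.nat_sub (PT.const 1)).nat_div hq'.1, hl'.2.sub.div⟩
  have hK' := hK.comp h1
  exact DPT.ite ((((hx.comp h1).nat_pow he.1 he.2).nat_mod hl'.1).eq
    (((hp.comp h1).nat_pow (he.mul hj).1 (he.mul hj).2).nat_mod hl'.1)) (hK'.npow (hζ.comp h1) hj) hK'.zero

theorem dpt_jac {α : Type} [Enc α] {K : α → Type} [∀ a, CommRing (K a)] [∀ a, Enc (K a)] (hK : BR K)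
    {ζ : ∀ a, K a} (hζ : DPT ζ) {p q l i : α → ℕ} (hp : PT p) (hq : UN q) (hl : UN l) (hi : UN i) :
    DPT fun a => jac (ζ a) (p a) (q a) (l a) (i a) := by
  refine hK.rangeSum hl (x := fun a x => chv (ζ a) (p a) (q a) (l a) x *
    chv (ζ a) (p a) (q a) (l a) (l a + 1 - x) ^ i a) ?_
  have h1 : PT fun b : Σ a, Fin (l a) => b.1 := pt_sigma_fst
  have hj : UN fun b : Σ a, Fin (l a) => b.2.val := hl.fin
  have hl' := hl.comp h1
  have hK' : BR fun b : Σ a, Fin (l a) => K b.1 := hK.comp h1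
  exact hK'.dmul (dpt_chv hK' (hζ.comp h1) (hp.comp h1) (hq.comp h1) hl' hj.1)
    (hK'.npow (dpt_chv hK' (hζ.comp h1) (hp.comp h1) (hq.comp h1) hl'
      ((hl'.1.nat_add (PT.const 1)).nat_sub hj.1)) (hi.comp h1))

theorem dpt_gam {α : Type} [Enc α] {K : α → Type} [∀ a, CommRing (K a)] [∀ a, Enc (K a)] (hK : BR K)
    {ζ : ∀ a, K a} (hζ : DPT ζ) {p q l : α → ℕ} (hp : PT p) (hq : UN q) (hl : UN l) :
    DPT fun a => gam (ζ a) (p a) (q a) (l a) := by
  have hq1 : UN fun a => q a - 1 := hq.sub (PT.const 1)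
  refine hK.dmul (hK.dmul (dpt_chv hK hζ hp hq hl (hl.1.nat_sub (PT.const 1))) (hK.dnat hl.1))
    (hK.icoProd (PT.const 1) hq1 (x := fun a i => jac (ζ a) (p a) (q a) (l a) i) ?_)
  have h1 : PT fun b : Σ a, Fin (q a - 1) => b.1 := pt_sigma_fst
  exact dpt_jac (hK.comp h1) (hζ.comp h1) (hp.comp h1) (hq.comp h1) (hl.comp h1) hq1.fin

end N

theorem exists_nonres_of (h : StSmall) {α : Type} [Enc α] {K : α → Type} [∀ a, Field (K a)] [∀ a, Fintype (K a)]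
    [∀ a, Enc (K a)] (hK : BR K) {p q : α → ℕ} (hp : PT p) (hq : UN q) (hQ : PT fun a => Fintype.card (K a))
    (hpp : ∀ a, (p a).Prime) (hqp : ∀ a, (q a).Prime) (hch : ∀ a, CharP (K a) (p a))
    (hk : ∀ a, ∃ k, Fintype.card (K a) = p a ^ k ∧ ¬ q a ∣ k) {ζ : ∀ a, K a} (hζ : DPT ζ)
    (hζp : ∀ a, IsPrimitiveRoot (ζ a) (q a)) :
    Solv fun a (γ : K a) => γ ≠ 0 ∧ γ ^ ((Fintype.card (K a) - 1) / q a) ≠ 1 := by
  obtain ⟨c, hc⟩ := h
  have hn : UN fun a => (q a + (p a).size) ^ c := (hq.add (UN.size hp)).pow c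
  have h1 : PT fun b : Σ a, Fin ((q a + (p a).size) ^ c) => b.1 := pt_sigma_fst
  have hL : DPT fun a => (List.range ((q a + (p a).size) ^ c)).map fun l => N.gam (ζ a) (p a) (q a) l :=
    DPT.rangeMap' hn (f := fun a l => N.gam (ζ a) (p a) (q a) l)
      (N.dpt_gam (hK.comp h1) (hζ.comp h1) (hp.comp h1) (hq.comp h1) hn.fin)
  have h2 : PT fun b : Σ a, K a => b.1 := pt_sigma_fst
  have hK' : BR fun b : Σ a, K a => K b.1 := hK.comp h2
  refine (Solv.chooseL hL (p := fun a γ => γ ≠ 0 ∧ γ ^ ((Fintype.card (K a) - 1) / q a) ≠ 1) ?_ fun a => ?_).mono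
    fun a b h => h.2
  · exact (DPT.eq dpt_sigma_snd hK'.zero).not.and (DPT.eq (hK'.dpow dpt_sigma_snd
      (((hQ.comp h2).nat_sub (PT.const 1)).nat_div (hq.comp h2).1)) hK'.one).not
  · obtain ⟨l, hl, hlt, hd, hlp, hp1⟩ := hc (p a) (q a) (hpp a) (hqp a)
    obtain ⟨k, hk1, hk2⟩ := hk a
    have := hch a
    exact ⟨_, List.mem_map.2 ⟨l, List.mem_range.2 hlt, rfl⟩,
      N.gam_spec (hpp a) (hqp a) hl hk1 hk2 (hζp a) hd hlp hp1⟩

end Crest.Agent.R312
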