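import Crest.Agent.R312.N.Small
import Crest.Agent.R312.N.PT
import Crest.Agent.R312.Top.Defs
import Crest.Agent.R27.Final
import Crest.Agent.R27.TH.Main
import Crest.Agent.R27.Z.M.Main

/-!
# R312/N/Main (owner helper98): block `N` (heavy imports: rows 17, 26, 27).
-/

set_option autoImplicit false

namespace Crest.Agent.R312

open Crest.Agent.R27 in
theorem zfk : R27.StZFK := stZFK_of stSec stAr stPois (TH.stThetaM (stLv Rec.stRec)) (stAn_of fun h => Z.stM h)

theorem stSmall : StSmall := N.small zfk

theorem nonres : NonresSt := fun hK hp hq hQ hpp hqp hch hk hζ hζp =>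
  exists_nonres_of stSmall hK hp hq hQ hpp hqp hch hk hζ hζp

end Crest.Agent.R312
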