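import Crest.Agent.R312.N.ZF
import Crest.Agent.R27.Ku.Main

/-!
# R312/N/Small (owner helper98): a small prime `l ≡ 1 (mod q)` modulo which the prime `p` is not a `q`-th power.
Otherwise the primes `l ≡ 1 (mod q)` split completely in `ℚ(p ^ (1 / q))`, which contradicts the prime counting `psi_diff`.
-/

set_option autoImplicit false

namespace Crest.Agent.R312.N

open Crest.Agent.R27 NumberField MeasureTheory Finset
open Crest.Agent.R27.Ku hiding fc_irred exists_F zeta_factor zero_free cna_one psi_diff exists_F0 main_sum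
open scoped Classical Real nonZeroDivisors ArithmeticFunction.vonMangoldt

/-- the field `ℚ(a ^ (1 / q))` (the proof of `R27.Ku.exists_F0`) -/
theorem exists_F0 {a : ℤ} (ha : 1 ≤ a) {q : ℕ} (hq : q.Prime) (hc : ∀ c : ℤ, c ^ q ≠ a) :
    ∃ (K : Type) (_ : Field K) (_ : NumberField K), Module.finrank ℚ K = q ∧ (∀ y : K, y ^ 2 + y + 1 ≠ 0) ∧
      |discr K| ≤ (q : ℤ) ^ q * |a| ^ q ∧ ∀ p : ℕ, p.Prime → ¬ (p : ℤ) ∣ q * a →
        aK K p = Nat.card {y : ZMod p // y ^ q = (a : ZMod p)} := by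
  have ha' : 1 ≤ |a| := ha.trans (le_abs_self a)
  have hirr : Irreducible (Polynomial.X ^ q - Polynomial.C (a : ℚ)) := by
    refine X_pow_sub_C_irreducible_of_prime hq fun b hb => ?_
    have hbi : IsIntegral ℤ b := IsIntegral.of_pow hq.pos (hb ▸ isIntegral_algebraMap (R := ℤ) (x := a))
    obtain ⟨c, rfl⟩ := IsIntegrallyClosed.isIntegral_iff.1 hbi
    refine hc c ?_
    rw [eq_intCast] at hb
    exact_mod_cast hb
  have : Fact (Irreducible (Polynomial.X ^ q - Polynomial.C (a : ℚ))) := ⟨hirr⟩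
  set f : Polynomial ℚ := Polynomial.X ^ q - Polynomial.C (a : ℚ) with hf
  have hm : f.Monic := Polynomial.monic_X_pow_sub_C _ hq.ne_zero
  have hdeg : f.natDegree = q := Polynomial.natDegree_X_pow_sub_C
  let pb : PowerBasis ℚ (AdjoinRoot f) := AdjoinRoot.powerBasis hm.ne_zero
  have hmin : minpoly ℚ pb.gen = f := AdjoinRoot.minpoly_powerBasis_gen_of_monic hm
  have hdim : pb.dim = q := by rw [← pb.natDegree_minpoly, hmin, hdeg]
  have hrk : Module.finrank ℚ (AdjoinRoot f) = q := by rw [pb.finrank, hdim]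
  have hN : Algebra.norm ℚ pb.gen = (-1) ^ q * (-a) := by
    rw [Algebra.PowerBasis.norm_gen_eq_coeff_zero_minpoly, hmin, hdim]
    simp [hf, Polynomial.coeff_X_pow, hq.ne_zero.symm]
  have hdisc : (((-1) ^ (q * (q - 1) / 2) * (q ^ q * ((-1) ^ q * (-a)) ^ (q - 1)) : ℤ) : ℚ) =
      Algebra.discr ℚ pb.basis := by
    rw [Algebra.discr_powerBasis_eq_norm, hmin, hrk]
    have : Polynomial.aeval pb.gen (Polynomial.derivative f) =
        algebraMap ℚ (AdjoinRoot f) q * pb.gen ^ (q - 1) := by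
      simp only [hf, map_sub, Polynomial.derivative_X_pow, Polynomial.derivative_C, map_mul, map_pow,
        Polynomial.aeval_X, sub_zero, Polynomial.aeval_C]
    rw [this, map_mul, map_pow, Algebra.norm_algebraMap, hrk, hN]
    push_cast
    ring
  obtain ⟨h1, h2⟩ := aK_of_powerBasis pb (Polynomial.X ^ q - Polynomial.C a)
    (Polynomial.monic_X_pow_sub_C _ hq.ne_zero) (by rw [hmin, hf]; simp) hdisc
  refine ⟨AdjoinRoot f, inferInstance, inferInstance, hrk, fun y hy => ?_, h1.trans ?_, fun p hp hpa => ?_⟩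
  · have hr : Polynomial.eval₂ (Rat.castHom ℝ) ((a : ℝ) ^ ((q : ℝ)⁻¹)) f = 0 := by
      have : (0 : ℝ) ≤ a := by exact_mod_cast (by omega : 0 ≤ a)
      rw [hf, Polynomial.eval₂_sub, Polynomial.eval₂_X_pow, Polynomial.eval₂_C,
        Real.rpow_inv_natCast_pow this hq.ne_zero, map_intCast, sub_self]
    have := congrArg (AdjoinRoot.lift _ _ hr) hy
    rw [map_add, map_add, map_pow, map_one, map_zero] at this
    nlinarith [sq_nonneg (2 * AdjoinRoot.lift _ _ hr y + 1)]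
  · simp only [abs_mul, abs_pow, abs_neg, abs_one, one_pow, one_mul, Nat.abs_cast]
    exact mul_le_mul_of_nonneg_left (pow_le_pow_right₀ (by omega) (Nat.sub_le _ _)) (by positivity)
  · have hp' : Prime (p : ℤ) := Nat.prime_iff_prime_int.1 hp
    rw [h2 p hp fun h => hpa ?_]
    · simp [sub_eq_zero]
    · rw [← dvd_abs] at h
      simp only [abs_mul, abs_pow, abs_neg, abs_one, one_pow, one_mul, Nat.abs_cast] at h
      rcases hp'.dvd_or_dvd h with h | h
      · exact (hp'.dvd_of_dvd_pow h).mul_right _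
      · exact ((dvd_abs _ _).1 (hp'.dvd_of_dvd_pow h)).mul_left _

theorem main_sum {p q X : ℕ} (hp : p.Prime) (hq : q.Prime) {K : Type} [Field K] [NumberField K]
    (hK : ∀ l : ℕ, l.Prime → ¬ (l : ℤ) ∣ q * (p : ℤ) →
      aK K l = Nat.card {y : ZMod l // y ^ q = ((p : ℤ) : ZMod l)})
    (hall : ∀ l ≤ 2 * X, l.Prime → q ∣ l - 1 → l ≠ p → (p : ZMod l) ^ ((l - 1) / q) = 1) :
    ((q : ℝ) - 1) / 4 * ∑ n ∈ (Icc 1 X).filter (fun n => n ≡ 1 [MOD q]), Λ n ≤
      ∑ n ∈ Icc 1 (2 * X), (lamK K n - lamK ℚ n) * wt (2 * X) n + (q + 1) *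
      (∑ n ∈ (Icc 1 (2 * X)).filter (fun n => ¬ n.Prime), Λ n * Real.log ((2 * X : ℕ) : ℝ) +
      Real.log (((q : ℤ) * p).natAbs : ℝ) * Real.log ((2 * X : ℕ) : ℝ)) := by
  have hqa : (q : ℤ) * p ≠ 0 := mul_ne_zero (by exact_mod_cast hq.ne_zero) (by exact_mod_cast hp.ne_zero)
  have hL : 0 ≤ Real.log ((2 * X : ℕ) : ℝ) := Real.log_natCast_nonneg _
  have hq1 : (2 : ℝ) ≤ q := by exact_mod_cast hq.two_le
  refine le_trans ?_ (add_le_add_right (mul_le_mul_of_nonneg_left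
    (add_le_add_right (mul_le_mul_of_nonneg_right (main_dvd hqa (2 * X)) hL) _) (by positivity)) _)
  rw [sum_filter, sum_filter, sum_mul, ← sum_add_distrib, mul_sum, mul_sum, ← sum_add_distrib]
  calc _ ≤ ∑ n ∈ Icc 1 X, ((q : ℝ) - 1) * (if n ≡ 1 [MOD q] then Λ n else 0) * wt (2 * X) n := by
        refine sum_le_sum fun n hn => ?_
        obtain ⟨h1, h2⟩ := mem_Icc.1 hn
        have hw := (wt_bounds (Y := 2 * X) h1 (by omega)).2.2.2 (by omega)
        have hl : 0 ≤ ((q : ℝ) - 1) * (if n ≡ 1 [MOD q] then Λ n else 0) :=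
          mul_nonneg (by linarith) (by split_ifs <;> simp [ArithmeticFunction.vonMangoldt_nonneg])
        nlinarith
    _ ≤ ∑ n ∈ Icc 1 (2 * X), ((q : ℝ) - 1) * (if n ≡ 1 [MOD q] then Λ n else 0) * wt (2 * X) n := by
        refine sum_le_sum_of_subset_of_nonneg (Icc_subset_Icc_right (by omega)) fun n hn _ => ?_
        obtain ⟨h1, h2⟩ := mem_Icc.1 hn
        exact mul_nonneg (mul_nonneg (by linarith)
          (by split_ifs <;> simp [ArithmeticFunction.vonMangoldt_nonneg])) (wt_bounds h1 h2).1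
    _ ≤ _ := by
        refine sum_le_sum fun n hn => ?_
        obtain ⟨h1, h2⟩ := mem_Icc.1 hn
        obtain ⟨w0, w1, w2, -⟩ := wt_bounds h1 h2
        have hv : 0 ≤ Λ n := ArithmeticFunction.vonMangoldt_nonneg
        have hP := point_le hq hK n
        have i2 : 0 ≤ (if ¬ n.Prime then Λ n else 0) := by split_ifs <;> simp [hv]
        have i3 : 0 ≤ (if (n : ℤ) ∣ q * (p : ℤ) then Λ n else 0) := by split_ifs <;> simp [hv]
        have i0 : 0 ≤ (if n.Prime ∧ q ∣ n - 1 ∧ (((p : ℤ) : ℤ) : ZMod n) ^ ((n - 1) / q) = 1 then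
            (q : ℝ) * Real.log n else 0) := by
          split_ifs
          · exact mul_nonneg (by positivity) (Real.log_natCast_nonneg _)
          · exact le_rfl
        have hA : (q : ℝ) * (if n ≡ 1 [MOD q] then Λ n else 0) ≤
            (if n.Prime ∧ q ∣ n - 1 ∧ (((p : ℤ) : ℤ) : ZMod n) ^ ((n - 1) / q) = 1 then (q : ℝ) * Real.log n else 0) +
              q * ((if ¬ n.Prime then Λ n else 0) + (if (n : ℤ) ∣ q * (p : ℤ) then Λ n else 0)) := by
          by_cases hm : n ≡ 1 [MOD q]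
          swap
          · rw [if_neg hm, mul_zero]
            positivity
          rw [if_pos hm]
          by_cases hn : n.Prime
          swap
          · rw [if_pos hn]
            nlinarith
          by_cases hnp : n = p
          · rw [if_pos (show (n : ℤ) ∣ q * (p : ℤ) from hnp ▸ dvd_mul_left _ _)]
            nlinarith
          · have hd := (Nat.modEq_iff_dvd' h1).1 hm.symm
            rw [if_pos ⟨hn, hd, by simpa using hall n h2 hn hd hnp⟩,
              ← ArithmeticFunction.vonMangoldt_apply_prime hn]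
            nlinarith
        have hB : ((q : ℝ) - 1) * (if n ≡ 1 [MOD q] then Λ n else 0) ≤ (lamK K n - lamK ℚ n) +
            (q + 1) * ((if ¬ n.Prime then Λ n else 0) + (if (n : ℤ) ∣ q * (p : ℤ) then Λ n else 0)) := by
          linarith
        refine (mul_le_mul_of_nonneg_right hB w0).trans ?_
        rw [add_mul, mul_assoc]
        refine add_le_add le_rfl (mul_le_mul_of_nonneg_left ?_ (by positivity))
        refine (mul_le_mul_of_nonneg_left (w1.trans w2) (add_nonneg i2 i3)).trans (le_of_eq ?_)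
        rw [add_mul]
        congr 1
        split_ifs <;> simp

theorem main_ineq (h : StZFK) : ∃ θ C : ℝ, θ < 1 ∧ 0 < C ∧ ∀ p q X : ℕ, p.Prime → q.Prime → 1 ≤ X →
    (∀ l ≤ 2 * X, l.Prime → q ∣ l - 1 → l ≠ p → (p : ZMod l) ^ ((l - 1) / q) = 1) →
    (X : ℝ) ≤ C * ((q + p.size : ℕ) : ℝ) ^ 2 * (X : ℝ) ^ θ := by
  obtain ⟨θ, C₁, hθ, hC₁, h1⟩ := psi_diff h
  obtain ⟨C₂, hC₂, h2⟩ := R26.stAP 1 one_pos
  obtain ⟨C₃, hC₃, h3⟩ := pp_weight
  refine ⟨max θ (19 / 20), C₂ + 4 * (4 * C₁ + 4 * C₃ + 8), max_lt hθ (by norm_num), by positivity,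
    fun p q X hp hq hX hall => ?_⟩
  obtain ⟨K, _, _, hn, hω, hd, hK⟩ := exists_F0 (a := p) (by exact_mod_cast hp.one_le) hq fun c hc => by
    have : c.natAbs ^ q = p := by rw [← Int.natAbs_pow, hc, Int.natAbs_natCast]
    exact hq.one_lt.ne' (Nat.Prime.eq_one_of_pow (this ▸ hp))
  have hS := main_sum hp hq hK hall
  set θ' : ℝ := max θ (19 / 20) with hθ'
  have hθ1 : θ' < 1 := max_lt hθ (by norm_num)
  have hθ2 : (19 / 20 : ℝ) ≤ θ' := le_max_right _ _
  have hY : 1 ≤ 2 * X := by omega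
  have hY1 : (1 : ℝ) ≤ ((2 * X : ℕ) : ℝ) := by exact_mod_cast hY
  have hX1 : (1 : ℝ) ≤ X := by exact_mod_cast hX
  have hX0 : (0 : ℝ) < X := by linarith
  have hq1 : (2 : ℝ) ≤ q := by exact_mod_cast hq.two_le
  have hP0 : 0 < (X : ℝ) ^ θ' := Real.rpow_pos_of_pos hX0 _
  have hYP : ∀ x : ℝ, x ≤ θ' → ((2 * X : ℕ) : ℝ) ^ x ≤ 2 * (X : ℝ) ^ θ' := fun x hx => by
    refine (Real.rpow_le_rpow_of_exponent_le hY1 hx).trans ?_
    rw [Nat.cast_mul, Real.mul_rpow (by positivity) hX0.le]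
    refine mul_le_mul_of_nonneg_right ?_ hP0.le
    calc ((2 : ℕ) : ℝ) ^ θ' ≤ ((2 : ℕ) : ℝ) ^ (1 : ℝ) :=
          Real.rpow_le_rpow_of_exponent_le (by norm_num) hθ1.le
      _ = 2 := by norm_num
  have hp0 : (0 : ℝ) < p := by exact_mod_cast hp.pos
  have hlq : Real.log q ≤ q := (Real.log_le_sub_one_of_pos (by linarith)).trans (by linarith)
  have hs0 : (0 : ℝ) ≤ p.size := by positivity
  have hla : Real.log p ≤ p.size := by
    have e : (p : ℝ) ≤ 2 ^ p.size := by exact_mod_cast (Nat.lt_size_self p).le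
    refine (Real.log_le_log hp0 e).trans ?_
    rw [Real.log_pow]
    nlinarith [Real.log_two_lt_d9]
  set m : ℝ := ((q + p.size : ℕ) : ℝ) with hm
  have hm' : m = q + p.size := by rw [hm, Nat.cast_add]
  have hqm : (q : ℝ) ≤ m := by linarith
  have hld : Real.log |(discr K : ℝ)| ≤ m ^ 2 := by
    have e1 : |(discr K : ℝ)| ≤ (q : ℝ) ^ q * (p : ℝ) ^ q := by
      have hd' : ((|discr K| : ℤ) : ℝ) ≤ (((q : ℤ) ^ q * |(p : ℤ)| ^ q : ℤ) : ℝ) := Int.cast_le.2 hd
      simpa using hd'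
    have e0 : 0 < |(discr K : ℝ)| := abs_pos.2 (by exact_mod_cast discr_ne_zero K)
    refine (Real.log_le_log e0 e1).trans ?_
    rw [Real.log_mul (by positivity) (by positivity), Real.log_pow, Real.log_pow]
    nlinarith
  have hld0 := cna_log K
  have t1 := h1 K hω (2 * X) hY
  rw [hn] at t1
  have t1' : C₁ * (q + Real.log |(discr K : ℝ)|) * ((2 * X : ℕ) : ℝ) ^ θ ≤
      C₁ * (2 * m ^ 2) * (2 * (X : ℝ) ^ θ') := by
    have := hYP θ (le_max_left _ _)
    gcongr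
    nlinarith
  have t2 := (abs_le.1 (h2 q 1 X hq.one_le (Nat.coprime_one_left q) hX)).1
  rw [Real.rpow_one, Nat.totient_prime hq, Nat.cast_sub hq.one_le, Nat.cast_one] at t2
  have t2' : (X : ℝ) ^ (19 / 20 : ℝ) ≤ (X : ℝ) ^ θ' := Real.rpow_le_rpow_of_exponent_le hX1 hθ2
  have t3 := h3 (2 * X) hY
  have hY34 := hYP (3 / 4) (by linarith)
  have t3' : C₃ * ((2 * X : ℕ) : ℝ) ^ (3 / 4 : ℝ) ≤ C₃ * (2 * (X : ℝ) ^ θ') * m := by
    refine le_trans (by gcongr) (le_mul_of_one_le_right (by positivity) (by linarith))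
  have t4 : Real.log (((q : ℤ) * p).natAbs : ℝ) * Real.log ((2 * X : ℕ) : ℝ) ≤ m * (2 * (2 * (X : ℝ) ^ θ')) := by
    have e1 : Real.log (((q : ℤ) * p).natAbs : ℝ) ≤ m := by
      rw [Int.natAbs_mul, Int.natAbs_natCast, Int.natAbs_natCast, Nat.cast_mul,
        Real.log_mul (by positivity) (by positivity)]
      linarith
    have e2 : Real.log ((2 * X : ℕ) : ℝ) ≤ 2 * (2 * (X : ℝ) ^ θ') := by
      refine (Real.log_le_rpow_div (by linarith) (by norm_num : (0 : ℝ) < 3 / 4)).trans ?_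
      rw [div_le_iff₀ (by norm_num)]
      linarith
    exact mul_le_mul e1 e2 (Real.log_natCast_nonneg _) (by positivity)
  set S := ∑ n ∈ (Icc 1 X).filter (fun n => n ≡ 1 [MOD q]), Λ n
  have k1 : ((q : ℝ) - 1) / 4 * S ≤ C₁ * (2 * m ^ 2) * (2 * (X : ℝ) ^ θ') +
      (2 * m) * (C₃ * (2 * (X : ℝ) ^ θ') * m + m * (2 * (2 * (X : ℝ) ^ θ'))) := by
    refine hS.trans (add_le_add (t1.trans t1') ?_)
    refine (mul_le_mul_of_nonneg_left (add_le_add (t3.trans t3') t4) (by positivity)).trans ?_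
    gcongr
    linarith
  have k2 : (X : ℝ) ≤ (q - 1) * S + C₂ * m ^ 2 * (X : ℝ) ^ θ' := by
    have e : (X : ℝ) = (q - 1) * (X / (q - 1)) := by
      have : (q : ℝ) - 1 ≠ 0 := by linarith
      field_simp
    have e2 : (q - 1) * (C₂ * (X : ℝ) ^ (19 / 20 : ℝ) * q) ≤ m * (C₂ * (X : ℝ) ^ θ' * m) := by
      gcongr
      linarith
    have e3 := mul_le_mul_of_nonneg_left t2 (show (0 : ℝ) ≤ q - 1 by linarith)
    nlinarith
  nlinarith

theorem small (h : StZFK) : ∃ c : ℕ, ∀ p q : ℕ, p.Prime → q.Prime → ∃ l : ℕ, l.Prime ∧ l < (q + p.size) ^ c ∧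
    q ∣ l - 1 ∧ l ≠ p ∧ (p : ZMod l) ^ ((l - 1) / q) ≠ 1 := by
  obtain ⟨θ, C, hθ, hC, h⟩ := main_ineq h
  obtain ⟨c₁, hc₁⟩ := pow_unbounded_of_one_lt C (one_lt_two (α := ℝ))
  obtain ⟨c₀, hc₀⟩ := exists_nat_ge ((c₁ + 2 : ℝ) / (1 - θ))
  rw [div_le_iff₀ (by linarith)] at hc₀
  refine ⟨c₀ + 1, fun p q hp hq => ?_⟩
  by_contra hcon
  have hm3 : 3 ≤ q + p.size := by
    have := hq.two_le
    have := Nat.size_pos.2 hp.pos
    omega
  have hX : 1 ≤ (q + p.size) ^ c₀ := Nat.one_le_pow _ _ (by omega)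
  have key := h p q ((q + p.size) ^ c₀) hp hq hX fun l hl hl1 hl2 hl3 => by
    by_contra h4
    refine hcon ⟨l, hl1, ?_, hl2, hl3, h4⟩
    rw [pow_succ]
    nlinarith
  have hm : (3 : ℝ) ≤ ((q + p.size : ℕ) : ℝ) := by exact_mod_cast hm3
  rw [Nat.cast_pow] at key
  generalize ((q + p.size : ℕ) : ℝ) = m at key hm
  have hm0 : 0 < m := by linarith
  have e1 : C < m ^ c₁ := hc₁.trans_le (pow_le_pow_left₀ (by norm_num) (by linarith) _)
  have e2 : m ^ c₁ * m ^ 2 * (m ^ c₀) ^ θ ≤ m ^ c₀ := by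
    rw [← Real.rpow_natCast, ← Real.rpow_natCast, ← Real.rpow_natCast, ← Real.rpow_mul hm0.le,
      ← Real.rpow_add hm0, ← Real.rpow_add hm0]
    refine Real.rpow_le_rpow_of_exponent_le (by linarith) ?_
    push_cast
    linarith
  have e3 : C * m ^ 2 * (m ^ c₀) ^ θ < m ^ c₁ * m ^ 2 * (m ^ c₀) ^ θ := by gcongr
  linarith

end Crest.Agent.R312.N
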