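import Crest.Agent.R27.Ku.Cnt

/-!
# R312/N/ZF (owner helper98): the prime counting of row 27 (block Ku, helper94) for fields without a primitive cube root
of unity (the original asks for odd degree; the proofs are copied).
-/

set_option autoImplicit false

namespace Crest.Agent.R312.N

open Crest.Agent.R27 NumberField MeasureTheory Finset
open Crest.Agent.R27.Ku hiding fc_irred exists_F zeta_factor zero_free cna_one psi_diff
open scoped Classical Real nonZeroDivisors ArithmeticFunction.vonMangoldt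

open Polynomial in
theorem fc_irred (k : Type) [Field k] (h : ∀ y : k, y ^ 2 + y + 1 ≠ 0) :
    Irreducible (X ^ 2 + X + 1 : k[X]) := by
  have hd : (X ^ 2 + X + 1 : k[X]).natDegree = 2 := by compute_degree!
  have hm : (X ^ 2 + X + 1 : k[X]).Monic := by monicity!
  rw [irreducible_iff_roots_eq_zero_of_degree_le_three (by rw [hd]) (by rw [hd]; norm_num),
    Multiset.eq_zero_iff_forall_notMem]
  intro y hy
  rw [mem_roots hm.ne_zero] at hy
  exact h y (by simpa using hy)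

theorem exists_F (K : Type) [Field K] [NumberField K] (hK : ∀ y : K, y ^ 2 + y + 1 ≠ 0) :
    ∃ (F : Type) (_ : Field F) (_ : NumberField F), (∃ ω : F, ω ^ 2 + ω + 1 = 0) ∧ ∃ M : ℕ, M ≠ 0 ∧
      ∀ p : ℕ, p.Prime → ¬ p ∣ M → aK F p = aK K p * Nat.card {y : ZMod p // y ^ 2 + y + 1 = 0} := by
  have : Fact (Irreducible (Polynomial.X ^ 2 + Polynomial.X + 1 : Polynomial K)) := ⟨fc_irred K hK⟩
  set f : Polynomial K := Polynomial.X ^ 2 + Polynomial.X + 1 with hf
  have hm : f.Monic := by rw [hf]; monicity!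
  have hdeg : f.natDegree = 2 := by rw [hf]; compute_degree!
  let pb : PowerBasis K (AdjoinRoot f) := AdjoinRoot.powerBasis hm.ne_zero
  have : FiniteDimensional K (AdjoinRoot f) := pb.finite
  have : NumberField (AdjoinRoot f) := NumberField.of_module_finite K _
  have hgen : pb.gen = AdjoinRoot.root f := rfl
  have hmin : minpoly K pb.gen = f := AdjoinRoot.minpoly_powerBasis_gen_of_monic hm
  have hω : pb.gen ^ 2 + pb.gen + 1 = 0 := by
    have := minpoly.aeval K pb.gen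
    rw [hmin] at this
    simpa only [hf, map_add, map_pow, Polynomial.aeval_X, map_one] using this
  have hrk : Module.finrank K (AdjoinRoot f) = 2 := by rw [pb.finrank, ← pb.natDegree_minpoly, hmin, hdeg]
  have hdisc : Algebra.discr K pb.basis ^ 2 = 9 := by
    rw [Algebra.discr_powerBasis_eq_norm, mul_pow, ← pow_mul, mul_comm _ 2, pow_mul, neg_one_sq, one_pow, one_mul,
      ← map_pow, hmin]
    have : Polynomial.aeval pb.gen (Polynomial.derivative f) ^ 2 = algebraMap K (AdjoinRoot f) (-3) := by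
      simp only [hf, map_add, Polynomial.derivative_X_pow, Polynomial.derivative_X, Polynomial.derivative_one,
        map_mul, map_pow, Polynomial.aeval_X, map_one, map_zero, map_neg, map_natCast, map_ofNat]
      push_cast
      linear_combination 4 * hω
    rw [this, Algebra.norm_algebraMap, hrk]
    norm_num
  obtain ⟨δ, hδ, hδ2⟩ : ∃ δ : 𝓞 K, algebraMap (𝓞 K) K δ = Algebra.discr K pb.basis ∧ δ ^ 2 = 9 := by
    rcases sq_eq_sq_iff_eq_or_eq_neg.1 (show Algebra.discr K pb.basis ^ 2 = 3 ^ 2 by rw [hdisc]; norm_num) with h | h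
    · exact ⟨3, by rw [h, map_ofNat], by norm_num⟩
    · exact ⟨-3, by rw [h, map_neg, map_ofNat], by norm_num⟩
  refine ⟨AdjoinRoot f, inferInstance, inferInstance, ⟨pb.gen, hω⟩, 3, by norm_num, fun p hp hp3 => ?_⟩
  have := Fact.mk hp
  have hφ : ∀ φ : 𝓞 K →+* ZMod p, φ δ ≠ 0 := fun φ h0 => by
    have h9 : ((9 : ℕ) : ZMod p) = 0 := by
      have := congrArg φ hδ2
      rw [map_pow, h0, map_ofNat] at this
      rw [Nat.cast_ofNat, ← this]
      norm_num
    rw [ZMod.natCast_eq_zero_iff] at h9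
    exact hp3 (hp.dvd_of_dvd_pow (show p ∣ 3 ^ 2 from h9))
  have hfib : ∀ φ : 𝓞 K →+* ZMod p, Nat.card {ψ : 𝓞 (AdjoinRoot f) →+* ZMod p //
      ψ.comp (algebraMap (𝓞 K) (𝓞 (AdjoinRoot f))) = φ} = Nat.card {y : ZMod p // y ^ 2 + y + 1 = 0} := fun φ => by
    rw [rel_card pb (Polynomial.X ^ 2 + Polynomial.X + 1) (by monicity!) (by rw [hmin, hf]; simp) hδ φ (hφ φ)]
    simp
  have hfin : ∀ (L : Type) [Field L] [NumberField L], Finite (𝓞 L →+* ZMod p) := fun L _ _ =>
    Finite.of_injective (fun ψ : 𝓞 L →+* ZMod p => fun i => ψ (RingOfIntegers.basis L i)) fun ψ ψ' h => by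
      have : ψ.toIntAlgHom.toLinearMap = ψ'.toIntAlgHom.toLinearMap :=
        (RingOfIntegers.basis L).ext fun i => congrFun h i
      exact RingHom.ext fun x => LinearMap.congr_fun this x
  have := hfin K
  have := hfin (AdjoinRoot f)
  have := Fintype.ofFinite (𝓞 K →+* ZMod p)
  rw [aK_prime _ hp, aK_prime _ hp, ← Nat.card_congr (Equiv.sigmaFiberEquiv
    fun ψ : 𝓞 (AdjoinRoot f) →+* ZMod p => ψ.comp (algebraMap (𝓞 K) (𝓞 (AdjoinRoot f)))), Nat.card_sigma]
  simp only [hfib, sum_const, card_univ, smul_eq_mul, Nat.card_eq_fintype_card (α := 𝓞 K →+* ZMod p)]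

theorem zeta_factor (K : Type) [Field K] [NumberField K] (hK : ∀ y : K, y ^ 2 + y + 1 ≠ 0) :
    ∃ (F : Type) (_ : Field F) (_ : NumberField F), (∃ ω : F, ω ^ 2 + ω + 1 = 0) ∧
      ∃ (χ : DirichletCharacter ℂ 3) (E : ℂ → ℂ), DifferentiableOn ℂ E {s | 1 / 2 < s.re} ∧
        ∀ s : ℂ, 1 < s.re → dedekindZeta F s = LSeries (fun n => (aK K n : ℂ)) s *
          LSeries (fun n => (aK K n : ℂ) * χ n) s * Complex.exp (E s) := by
  obtain ⟨F, _, _, hω, M, hM, hF⟩ := exists_F K hK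
  obtain ⟨χ, hχ⟩ := roots_cube
  have hχn : ∀ n : ℕ, ‖(lamK K n : ℂ) * χ n‖ ≤ Module.finrank ℚ K * Λ n := fun n => by
    rw [norm_mul]
    exact (mul_le_of_le_one_right (norm_nonneg _) (χ.norm_le_one _)).trans (expb_norm K n)
  refine ⟨F, inferInstance, inferInstance, hω, χ,
    LSeries fun n => ((lamK F n : ℂ) - (lamK K n : ℂ) - (lamK K n : ℂ) * χ n) / ((Real.log n : ℝ) : ℂ),
    exc_hol (B := Module.finrank ℚ F + Module.finrank ℚ K + Module.finrank ℚ K) (fun n => ?_)
      (M := 3 * M) (by omega) fun p hp hpM => ?_, fun s hs => ?_⟩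
  · refine (norm_sub_le _ _).trans ((add_le_add (norm_sub_le _ _) le_rfl).trans ?_)
    have h1 := expb_norm F n
    have h2 := expb_norm K n
    have h3 := hχn n
    linarith
  · have h1 := hF p hp fun h => hpM (h.mul_left 3)
    have h2 := hχ p hp fun h => hpM (h ▸ dvd_mul_right 3 M)
    rw [lamK_prime F hp, lamK_prime K hp, h1]
    push_cast
    rw [h2]
    ring
  · have e : (fun n : ℕ => ((lamK F n : ℂ) - (lamK K n : ℂ) - (lamK K n : ℂ) * χ n) / ((Real.log n : ℝ) : ℂ)) =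
        (fun n : ℕ => (lamK F n : ℂ) / ((Real.log n : ℝ) : ℂ)) - (fun n : ℕ => (lamK K n : ℂ) / ((Real.log n : ℝ) : ℂ)) -
          fun n : ℕ => (lamK K n : ℂ) * χ n / ((Real.log n : ℝ) : ℂ) := by
      funext n
      simp only [Pi.sub_apply, sub_div]
    have s1 := (summable_of_le_vM (expb_norm F) hs).2
    have s2 := (summable_of_le_vM (expb_norm K) hs).2
    have s3 := (summable_of_le_vM hχn hs).2
    rw [e, LSeries_sub (s1.sub s2) s3, LSeries_sub s1 s2, zeta_eq, (zeta_exp F hs).1, (zeta_exp K hs).1,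
      twist_exp K χ hs, ← Complex.exp_add, ← Complex.exp_add]
    congr 1
    ring

theorem zero_free (h : StZFK) : ∃ θ : ℝ, 1 / 2 ≤ θ ∧ θ < 1 ∧ ∀ (K : Type) [Field K] [NumberField K],
    (∀ y : K, y ^ 2 + y + 1 ≠ 0) → ∀ Z : ℂ → ℂ, DifferentiableOn ℂ Z {s | 0 < s.re} →
      (∀ s : ℂ, 1 < s.re → Z s = (s - 1) * LSeries (fun n => (aK K n : ℂ)) s) →
      ∀ s : ℂ, θ < s.re → Z s ≠ 0 := by
  obtain ⟨θ₀, hθ₀, h⟩ := h
  refine ⟨max θ₀ (1 / 2), le_max_right _ _, max_lt hθ₀ (by norm_num), fun K _ _ hK Z hZ hZe s hs hs0 => ?_⟩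
  obtain ⟨F, _, _, hω, χ, E, hE, hfac⟩ := zeta_factor K hK
  obtain ⟨G, hG, hGe⟩ := h F hω
  obtain ⟨Z', hZ', hZe'⟩ := hecke_cont K (by norm_num : 1 ≤ 3) χ
  have hU : IsOpen {s : ℂ | max θ₀ (1 / 2) < s.re} := isOpen_lt continuous_const Complex.continuous_re
  have s1 : {s : ℂ | max θ₀ (1 / 2) < s.re} ⊆ {s | θ₀ < s.re} := fun z hz =>
    show θ₀ < z.re from (le_max_left _ _).trans_lt hz
  have s2 : {s : ℂ | max θ₀ (1 / 2) < s.re} ⊆ {s | 1 / 2 < s.re} := fun z hz =>
    show 1 / 2 < z.re from (le_max_right _ _).trans_lt hz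
  have s3 : {s : ℂ | max θ₀ (1 / 2) < s.re} ⊆ {s | 0 < s.re} := fun z hz =>
    show 0 < z.re from (by norm_num : (0 : ℝ) < 1 / 2).trans (s2 hz)
  have hf : AnalyticOnNhd ℂ (fun z => G z * Z z * Z' z * Complex.exp (E z))
      {s : ℂ | max θ₀ (1 / 2) < s.re} :=
    ((((hG.mono s1).mul (hZ.mono s3)).mul (hZ'.mono s3)).mul (hE.mono s2).cexp).analyticOnNhd hU
  have hg : AnalyticOnNhd ℂ (fun z : ℂ => (z - 1) ^ 2) {s : ℂ | max θ₀ (1 / 2) < s.re} :=
    fun z _ => by fun_prop
  have h2 : (2 : ℂ) ∈ {s : ℂ | max θ₀ (1 / 2) < s.re} := by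
    change _ < (2 : ℂ).re
    rw [Complex.re_ofNat]
    exact max_lt (by linarith) (by norm_num)
  have hev : (fun z => G z * Z z * Z' z * Complex.exp (E z)) =ᶠ[nhds 2] fun z : ℂ => (z - 1) ^ 2 := by
    have : {s : ℂ | 1 < s.re} ∈ nhds (2 : ℂ) :=
      (isOpen_lt continuous_const Complex.continuous_re).mem_nhds (by simp)
    filter_upwards [this] with z hz
    have h1 := hGe z hz
    rw [hfac z hz] at h1
    rw [hZe z hz, hZe' z hz]
    linear_combination (z - 1) ^ 2 * h1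
  have key := hf.eqOn_of_preconnected_of_eventuallyEq hg (convex_halfSpace_re_gt _).isPreconnected h2 hev hs
  simp only [hs0, mul_zero, zero_mul] at key
  obtain rfl : s = 1 := sub_eq_zero.1 (pow_eq_zero_iff two_ne_zero |>.1 key.symm)
  exact fb_one K hZ hZe hs0

open Crest.Agent.R17 in
theorem cna_one (h : StZFK) : ∃ θ C : ℝ, 1 / 2 ≤ θ ∧ θ < 1 ∧ 0 < C ∧ ∀ (K : Type) [Field K] [NumberField K],
    (∀ y : K, y ^ 2 + y + 1 ≠ 0) → ∃ H : ℂ → ℂ, DifferentiableOn ℂ H (strip θ 2) ∧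
      (∀ s ∈ strip θ 2, ‖H s‖ ≤ C * (Module.finrank ℚ K + Real.log |(discr K : ℝ)|) * (|s.im| + 2)) ∧
      ∀ s : ℂ, s.re = 2 → H s = LSeries (fun n => (lamK K n : ℂ)) s - 1 / (s - 1) := by
  obtain ⟨θ, hθ, hθ1, hZF⟩ := zero_free h
  obtain ⟨C₀, hC₀, hH⟩ := hecke_bound
  obtain ⟨C, hC, hBC⟩ := bc_ld (θ₀ := θ) (θ₁ := (θ + 1) / 2) (by linarith) (by linarith) (by linarith)
  refine ⟨(θ + 1) / 2, C * (C₀ + 1), by linarith, by linarith, by positivity, fun K _ _ hK => ?_⟩
  obtain ⟨Z, hZ, hZ1, hZ2⟩ := hH K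
  have hne := hZF K hK Z hZ hZ1
  have hn : (1 : ℝ) ≤ Module.finrank ℚ K := by exact_mod_cast Module.finrank_pos
  have hl := cna_log K
  have hopen : IsOpen {s : ℂ | 0 < s.re} := isOpen_lt continuous_const Complex.continuous_re
  have hsub : strip ((θ + 1) / 2) 2 ⊆ {s : ℂ | 0 < s.re} := fun s hs => by
    have := hs.1
    show 0 < s.re
    linarith
  refine ⟨fun s => -(deriv Z s / Z s), (((hZ.deriv hopen).mono hsub).div (hZ.mono hsub) fun s hs =>
    hne s (by have := hs.1; linarith)).neg, fun s hs => ?_, fun s hs => ?_⟩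
  · rw [norm_neg]
    refine (hBC Z ((C₀ + 1) * (Module.finrank ℚ K + Real.log |(discr K : ℝ)|)) (by positivity)
      (hZ.mono fun s hs => by
        have : θ < s.re := hs
        show 0 < s.re
        linarith) hne (fun s h1 h2 => (hZ2 s (by linarith) h2).trans ?_) (fun s hs => ?_) s hs).trans
      (le_of_eq (by ring))
    · gcongr
      linarith
    · rw [hZ1 s (by linarith), norm_mul]
      have e1 : 1 ≤ ‖s - 1‖ := by
        have := Complex.re_le_norm (s - 1)
        simp only [Complex.sub_re, Complex.one_re, hs] at this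
        linarith
      refine le_trans ?_ (le_mul_of_one_le_left (norm_nonneg _) e1)
      refine le_trans (Real.exp_le_exp.2 ?_) (zeta_bounds K hs.ge).1
      nlinarith
  · have hs1 : 1 < s.re := by linarith
    have ho : {s : ℂ | 1 < s.re} ∈ nhds s := (isOpen_lt continuous_const Complex.continuous_re).mem_nhds hs1
    have hev : Z =ᶠ[nhds s] fun s => (s - 1) * LSeries (fun n => (aK K n : ℂ)) s :=
      Filter.eventually_of_mem ho fun w hw => hZ1 w hw
    have hd : DifferentiableAt ℂ (LSeries fun n => (aK K n : ℂ)) s :=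
      (LSeries_hasDerivAt (lt_of_le_of_lt (LSeries.abscissaOfAbsConv_le_of_forall_lt_LSeriesSummable
        fun y hy => summable_aK K (by simpa using hy)) (by exact_mod_cast hs1))).differentiableAt
    have h0 : LSeries (fun n => (aK K n : ℂ)) s ≠ 0 := by
      rw [(zeta_exp K hs1).1]
      exact Complex.exp_ne_zero _
    have h1 : s - 1 ≠ 0 := fun h => by
      rw [sub_eq_zero.1 h] at hs1
      simp at hs1
    have hD : deriv Z s = 1 * LSeries (fun n => (aK K n : ℂ)) s +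
        (s - 1) * deriv (LSeries fun n => (aK K n : ℂ)) s := by
      rw [hev.deriv_eq]
      exact (((hasDerivAt_id s).sub_const 1).mul hd.hasDerivAt).deriv
    simp only [hD, hZ1 s hs1, (zeta_exp K hs1).2]
    field_simp
    ring

theorem psi_diff (h : StZFK) : ∃ θ C : ℝ, θ < 1 ∧ 0 < C ∧ ∀ (K : Type) [Field K] [NumberField K],
    (∀ y : K, y ^ 2 + y + 1 ≠ 0) → ∀ Y : ℕ, 1 ≤ Y →
      ∑ n ∈ Icc 1 Y, (lamK K n - lamK ℚ n) * wt Y n ≤
        C * (Module.finrank ℚ K + Real.log |(discr K : ℝ)|) * (Y : ℝ) ^ θ := by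
  obtain ⟨θ, C, hθ, hθ1, hC, hH⟩ := cna_one h
  obtain ⟨C', hC', hP⟩ := perron3 hθ (by linarith)
  refine ⟨θ, C' * (2 * C), hθ1, by positivity, fun K _ _ hK Y hY => ?_⟩
  obtain ⟨H, h1, h2, h3⟩ := hH K hK
  obtain ⟨H', h1', h2', h3'⟩ := hH ℚ (fun r hr => by nlinarith [sq_nonneg (2 * r + 1)])
  have hn : (1 : ℝ) ≤ Module.finrank ℚ K := by exact_mod_cast Module.finrank_pos
  have hl := cna_log K
  have key := hP ((fun n => (lamK K n : ℂ)) - fun n => (lamK ℚ n : ℂ)) (fun s => H s - H' s)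
    (2 * C * (Module.finrank ℚ K + Real.log |(discr K : ℝ)|))
    ((cna_sum K (by simp)).sub (cna_sum ℚ (by simp))) (h1.sub h1') (fun s hs => ?_) (fun s hs => ?_) Y hY
  · refine le_trans ?_ ((Complex.re_le_norm _).trans (key.trans (le_of_eq (by ring))))
    simp [Complex.re_sum]
  · have e := h2' s hs
    simp only [Module.finrank_self, Rat.numberField_discr, Nat.cast_one, Int.cast_one, abs_one, Real.log_one,
      add_zero, mul_one] at e
    have e' : C * (|s.im| + 2) ≤ C * (Module.finrank ℚ K + Real.log |(discr K : ℝ)|) * (|s.im| + 2) := by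
      gcongr
      exact le_mul_of_one_le_right hC.le (by linarith)
    linarith [norm_sub_le (H s) (H' s), h2 s hs]
  · have hs1 : 1 < s.re := by linarith
    simp only [h3 s hs, h3' s hs, LSeries_sub (cna_sum K hs1) (cna_sum ℚ hs1)]
    ring

end Crest.Agent.R312.N
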